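import Vale.Agent.P011U.IF2
import Vale.Agent.P011UH.T1

/-!
Anisotropy is invariant under isomorphisms of forms.
-/

set_option autoImplicit false
set_option linter.all false

namespace Vale.Agent.P011UE9

open Matrix Vale.Agent.P011L Vale.Agent.P011LT Vale.Agent.P011U Vale.Agent.P011UH

theorem eqv_ani {k K m n : Type} [Field k] [Field K] [Infinite K] [Algebra k K] [Fintype m]
    [DecidableEq m] [Fintype n] [DecidableEq n] {H : Subgroup (GL m K)} {H' : Subgroup (GL n K)}
    {T : Tw k H} {T' : Tw k H'} (h : Eqv T T') (an : T.Ani) : T'.Ani := fun g y l h1 h2 => by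
  obtain ⟨ψ, -, p, e⟩ := h
  have hl : ∀ t, (l t).1 = coc g y t := fun t => Units.ext (by
    rw [coc_val, ← h1, Units.mul_inv_cancel_right])
  let l' : Kˣ →* H' := (coc g y).codRestrict _ fun t => hl t ▸ (l t).2
  have e' : ∀ t, l' t = l t := fun t => Subtype.ext (hl t).symm
  obtain ⟨g', y', h3⟩ := diag_of_lau (H.subtype.comp (ψ.symm.toMonoidHom.comp l')) fun a b => by
    obtain ⟨q, hq⟩ := p a b
    exact Lau.congr (lau_conj (k := K) g y (x := fun t (e : n × n) => (l' t).1.1 e.1 e.2)
      Prod.fst Prod.snd (fun _ _ => rfl) q) fun t => hq _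
  obtain rfl := an g' y' (fun t => ψ.symm (l' t)) h3 fun σ t => ψ.injective (by
    rw [← e, ψ.apply_symm_apply, ψ.apply_symm_apply, e', e', h2])
  refine coc_eq (g := g) fun t => ?_
  have : ψ.symm (l' t) = 1 := Subtype.ext (mul_right_cancel (b := g') (Units.ext (by
    simpa using h3 t)))
  exact congrArg Subtype.val ((map_eq_one_iff _ ψ.symm.injective).1 this)

theorem eqa : EQA := fun k K _ _ _ _ _ _ _ _ _ h =>
  haveI : Infinite K := .of_injective _ (algebraMap k K).injective
  eqv_ani h

end Vale.Agent.P011UE9
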